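import Mathlib

/-!
Codes with good squares: pure linear algebra.
`Good θ a`: the vectors `a j` (`j : ι`) of `F^κ` contain every unit vector, and a quadratic form
that does not vanish at all of them vanishes at a fraction at most `θ` of them.
* `Good.of_code`: from a space of functions whose square has large distance.
* `Good.restrict`: fewer coordinates.
* `Good.tensor`: tensor product.
-/

namespace Vale.Agent.P318.H321

open Finset

variable {F : Type*} [Field F]

/-- value of the quadratic form with matrix `M` at `v` -/
def quad {κ : Type*} [Fintype κ] (M : κ → κ → F) (v : κ → F) : F :=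
  ∑ i, ∑ l, M i l * (v i * v l)

open Classical in
/-- systematic family with large distance of the square -/
structure Good {ι κ : Type*} [Fintype ι] [Fintype κ] (θ : ℝ) (a : ι → κ → F) : Prop where
  sys : ∀ i : κ, ∃ j : ι, a j i = 1 ∧ ∀ l, l ≠ i → a j l = 0
  dist : ∀ M : κ → κ → F, (∃ j, quad M (a j) ≠ 0) →
    ((univ.filter fun j => quad M (a j) = 0).card : ℝ) ≤ θ * Fintype.card ι

section restrict

variable {ι κ κ' : Type*} [Fintype ι] [Fintype κ] [Fintype κ']

/-- extension by zero of a matrix along an embedding -/
noncomputable def extM (e : κ' ↪ κ) (M : κ' → κ' → F) : κ → κ → F :=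
  fun i l => Function.extend e (fun i' => Function.extend e (M i') 0 l) 0 i

theorem quad_extM (e : κ' ↪ κ) (M : κ' → κ' → F) (v : κ → F) :
    quad (extM e M) v = quad M (fun i => v (e i)) := by
  classical
  have key : ∀ g : κ' → F, ∀ w : κ → F, ∑ i, Function.extend e g 0 i * w i = ∑ i', g i' * w (e i') := by
    intro g w
    have h1 : ∑ i, Function.extend e g 0 i * w i
        = ∑ i ∈ univ.map e, Function.extend e g 0 i * w i := by
      symm
      apply Finset.sum_subset (Finset.subset_univ _)
      intro x _ hx
      have : ¬ ∃ y, e y = x := by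
        rintro ⟨y, hy⟩
        exact hx (by rw [← hy]; simp)
      rw [Function.extend_apply' _ _ _ this]
      simp
    rw [h1, Finset.sum_map]
    refine Finset.sum_congr rfl fun i _ => ?_
    rw [e.injective.extend_apply]
  unfold quad
  have h2 : ∀ i, ∑ l, extM e M i l * (v i * v l)
      = Function.extend e (fun i' => ∑ l', M i' l' * v (e l')) 0 i * v i := by
    intro i
    by_cases hi : ∃ i', e i' = i
    · obtain ⟨i', rfl⟩ := hi
      rw [e.injective.extend_apply]
      have : ∀ l, extM e M (e i') l = Function.extend e (M i') 0 l := by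
        intro l
        unfold extM
        rw [e.injective.extend_apply]
      simp only [this]
      have h3 := key (M i') v
      rw [← h3, Finset.sum_mul]
      refine Finset.sum_congr rfl fun l _ => ?_
      ring
    · rw [Function.extend_apply' _ _ _ hi]
      have : ∀ l, extM e M i l = 0 := by
        intro l
        unfold extM
        rw [Function.extend_apply' _ _ _ hi]
        rfl
      simp [this]
  simp only [h2]
  rw [key]
  refine Finset.sum_congr rfl fun i _ => ?_
  rw [Finset.sum_mul]
  refine Finset.sum_congr rfl fun l _ => ?_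
  ring

/-- restriction to fewer coordinates -/
theorem Good.restrict {θ : ℝ} {a : ι → κ → F} (h : Good θ a) (e : κ' ↪ κ) :
    Good θ (fun j i => a j (e i)) := by
  classical
  refine ⟨?_, ?_⟩
  · intro i
    obtain ⟨j, hj, hj'⟩ := h.sys (e i)
    exact ⟨j, hj, fun l hl => hj' _ fun h' => hl (e.injective h')⟩
  · intro M hM
    have h2 : ∀ j, quad (extM e M) (a j) = quad M (fun i => a j (e i)) :=
      fun j => quad_extM e M (a j)
    have h3 := h.dist (extM e M) (by simpa only [h2] using hM)
    simp only [h2] at h3
    exact h3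

/-- change of the index set of the vectors -/
theorem Good.reindex {ι' : Type*} [Fintype ι'] {θ : ℝ} {a : ι → κ → F} (h : Good θ a)
    (e : ι' ≃ ι) : Good θ (fun j => a (e j)) := by
  classical
  refine ⟨?_, ?_⟩
  · intro i
    obtain ⟨j, hj⟩ := h.sys i
    exact ⟨e.symm j, by simpa using hj⟩
  · intro M hM
    obtain ⟨j, hj⟩ := hM
    have h3 := h.dist M ⟨e j, hj⟩
    have hc : (univ.filter fun j => quad M (a (e j)) = 0).card
        = (univ.filter fun j => quad M (a j) = 0).card := by
      apply Finset.card_bij (fun j _ => e j)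
      · intro j hj; simpa using hj
      · intro j _ j' _ h; exact e.injective h
      · intro j hj
        exact ⟨e.symm j, by simpa using hj, by simp⟩
    rw [hc, Fintype.card_congr e]
    exact h3

end restrict

section tensor

variable {ι κ ι' κ' : Type*} [Fintype ι] [Fintype κ] [Fintype ι'] [Fintype κ']

/-- tensor product of two families -/
def tens (a : ι → κ → F) (b : ι' → κ' → F) : ι × ι' → κ × κ' → F :=
  fun j i => a j.1 i.1 * b j.2 i.2

/-- contraction of a matrix on the right -/
def conR (M : κ × κ' → κ × κ' → F) (w : κ' → F) : κ → κ → F :=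
  fun i l => ∑ i', ∑ l', M (i, i') (l, l') * (w i' * w l')

/-- contraction of a matrix on the left -/
def conL (M : κ × κ' → κ × κ' → F) (v : κ → F) : κ' → κ' → F :=
  fun i' l' => ∑ i, ∑ l, M (i, i') (l, l') * (v i * v l)

theorem quad_tens_right (M : κ × κ' → κ × κ' → F) (v : κ → F) (w : κ' → F) :
    quad M (fun i => v i.1 * w i.2) = quad (conR M w) v := by
  unfold quad conR
  rw [Fintype.sum_prod_type]
  refine Finset.sum_congr rfl fun i _ => ?_
  simp only [Fintype.sum_prod_type]
  rw [Finset.sum_comm]
  refine Finset.sum_congr rfl fun l _ => ?_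
  simp only [Finset.sum_mul]
  refine Finset.sum_congr rfl fun i' _ => ?_
  refine Finset.sum_congr rfl fun l' _ => ?_
  ring

theorem quad_tens_left (M : κ × κ' → κ × κ' → F) (v : κ → F) (w : κ' → F) :
    quad M (fun i => v i.1 * w i.2) = quad (conL M v) w := by
  unfold quad conL
  rw [Fintype.sum_prod_type, Finset.sum_comm]
  refine Finset.sum_congr rfl fun i' _ => ?_
  simp only [Fintype.sum_prod_type]
  have : ∀ i : κ, ∑ l, ∑ l', M (i, i') (l, l') * (v i * w i' * (v l * w l'))
      = ∑ l', ∑ l, M (i, i') (l, l') * (v i * w i' * (v l * w l')) :=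
    fun i => Finset.sum_comm
  simp only [this]
  rw [Finset.sum_comm]
  refine Finset.sum_congr rfl fun l' _ => ?_
  rw [Finset.sum_mul]
  refine Finset.sum_congr rfl fun i _ => ?_
  rw [Finset.sum_mul]
  refine Finset.sum_congr rfl fun l _ => ?_
  ring

theorem compl_card {α : Type*} [Fintype α] (p : α → Prop) [DecidablePred p] (t : ℝ)
    (h : ((univ.filter fun x => p x).card : ℝ) ≤ t * Fintype.card α) :
    (1 - t) * Fintype.card α ≤ ((univ.filter fun x => ¬ p x).card : ℝ) := by
  have h2 : (univ.filter fun x => p x).card + (univ.filter fun x => ¬ p x).card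
      = Fintype.card α := by
    rw [Finset.card_filter_add_card_filter_not]; rfl
  have h3 : ((univ.filter fun x => p x).card : ℝ) + ((univ.filter fun x => ¬ p x).card : ℝ)
      = Fintype.card α := by exact_mod_cast h2
  linarith

/-- the tensor product of two good families: the distances of the squares multiply -/
theorem Good.tensor {θ θ' : ℝ} (hθ : θ ≤ 1) {a : ι → κ → F} {b : ι' → κ' → F}
    (ha : Good θ a) (hb : Good θ' b) : Good (1 - (1 - θ) * (1 - θ')) (tens a b) := by
  classical
  refine ⟨?_, ?_⟩
  · rintro ⟨i, i'⟩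
    obtain ⟨j, hj1, hj2⟩ := ha.sys i
    obtain ⟨j', hj1', hj2'⟩ := hb.sys i'
    refine ⟨(j, j'), ?_, ?_⟩
    · simp only [tens, hj1, hj1', mul_one]
    · rintro ⟨l, l'⟩ hl
      simp only [tens]
      by_cases h1 : l = i
      · subst h1
        rw [hj2' l' (fun h2 => hl (by rw [h2])), mul_zero]
      · rw [hj2 l h1, zero_mul]
  · intro M hM
    obtain ⟨⟨j0, j0'⟩, h0⟩ := hM
    set g : ι × ι' → F := fun j => quad M (tens a b j) with hg
    have hR : ∀ j j', g (j, j') = quad (conR M (b j')) (a j) := fun j j' =>
      quad_tens_right M (a j) (b j')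
    have hL : ∀ j j', g (j, j') = quad (conL M (a j)) (b j') := fun j j' =>
      quad_tens_left M (a j) (b j')
    have hrow : (1 - θ') * Fintype.card ι' ≤ ((univ.filter fun j' => ¬ g (j0, j') = 0).card : ℝ) := by
      apply compl_card
      have := hb.dist (conL M (a j0)) ⟨j0', by rw [← hL]; exact h0⟩
      simp only [← hL] at this
      exact this
    have hcol : ∀ j', g (j0, j') ≠ 0 →
        (1 - θ) * Fintype.card ι ≤ ((univ.filter fun j => ¬ g (j, j') = 0).card : ℝ) := by
      intro j' hj'
      apply compl_card
      have := ha.dist (conR M (b j')) ⟨j0, by rw [← hR]; exact hj'⟩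
      simp only [← hR] at this
      exact this
    -- count the non zeros
    have hcount : ((univ.filter fun j : ι × ι' => ¬ g j = 0).card : ℝ)
        = ∑ j' : ι', ((univ.filter fun j => ¬ g (j, j') = 0).card : ℝ) := by
      have : (univ.filter fun j : ι × ι' => ¬ g j = 0).card
          = ∑ j' : ι', (univ.filter fun j => ¬ g (j, j') = 0).card := by
        simp only [Finset.card_filter]
        rw [Fintype.sum_prod_type, Finset.sum_comm]
      exact_mod_cast this
    have hge : (1 - θ) * (1 - θ') * (Fintype.card ι * Fintype.card ι')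
        ≤ ((univ.filter fun j : ι × ι' => ¬ g j = 0).card : ℝ) := by
      rw [hcount]
      calc (1 - θ) * (1 - θ') * ((Fintype.card ι : ℝ) * Fintype.card ι')
          = ((1 - θ') * Fintype.card ι') * ((1 - θ) * Fintype.card ι) := by ring
        _ ≤ ((univ.filter fun j' => ¬ g (j0, j') = 0).card : ℝ) * ((1 - θ) * Fintype.card ι) := by
            apply mul_le_mul_of_nonneg_right hrow
            have : (0 : ℝ) ≤ 1 - θ := by linarith
            positivity
        _ = ∑ _j' ∈ (univ.filter fun j' => ¬ g (j0, j') = 0), ((1 - θ) * Fintype.card ι) := by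
            rw [Finset.sum_const, nsmul_eq_mul]
        _ ≤ ∑ j' ∈ (univ.filter fun j' => ¬ g (j0, j') = 0),
              ((univ.filter fun j => ¬ g (j, j') = 0).card : ℝ) := by
            apply Finset.sum_le_sum
            intro j' hj'
            exact hcol j' (by simpa using hj')
        _ ≤ ∑ j' : ι', ((univ.filter fun j => ¬ g (j, j') = 0).card : ℝ) := by
            apply Finset.sum_le_sum_of_subset_of_nonneg (Finset.subset_univ _)
            intros; positivity
    have htot : (univ.filter fun j : ι × ι' => g j = 0).card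
        + (univ.filter fun j : ι × ι' => ¬ g j = 0).card = Fintype.card (ι × ι') := by
      rw [Finset.card_filter_add_card_filter_not]; rfl
    have htot' : ((univ.filter fun j : ι × ι' => g j = 0).card : ℝ)
        + ((univ.filter fun j : ι × ι' => ¬ g j = 0).card : ℝ)
        = Fintype.card ι * Fintype.card ι' := by
      rw [Fintype.card_prod] at htot
      exact_mod_cast htot
    have hfin : ((univ.filter fun j : ι × ι' => g j = 0).card : ℝ)
        ≤ (1 - (1 - θ) * (1 - θ')) * (Fintype.card ι * Fintype.card ι') := by
      nlinarith [htot', hge]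
    rw [Fintype.card_prod]
    push_cast
    exact hfin

/-- the tensor square, with the simple bound -/
theorem Good.tensor_self {θ : ℝ} (hθ : θ ≤ 1) {a : ι → κ → F} (ha : Good θ a) :
    Good (2 * θ) (tens a a) := by
  have h := Good.tensor hθ ha ha
  refine ⟨h.sys, fun M hM => (h.dist M hM).trans ?_⟩
  apply mul_le_mul_of_nonneg_right _ (Nat.cast_nonneg _)
  nlinarith [sq_nonneg θ]

end tensor

section code

variable {P : Type*} [Fintype P]

/-- an information set and a systematic basis: elementary induction -/
theorem exists_information_set (C : Submodule F (P → F)) (k : ℕ) (hk : k ≤ Module.finrank F C) :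
    ∃ (p : Fin k → P) (c : Fin k → P → F), (∀ i, c i ∈ C) ∧ (∀ i, c i (p i) = 1) ∧
      ∀ i l, l ≠ i → c i (p l) = 0 := by
  induction k with
  | zero => exact ⟨fun i => i.elim0, fun i => i.elim0, fun i => i.elim0, fun i => i.elim0,
      fun i => i.elim0⟩
  | succ k ih =>
    obtain ⟨p, c, hc, h1, h0⟩ := ih (by omega)
    have hx : ∃ x ∈ C, x ∉ Submodule.span F (Set.range c) := by
      by_contra hcon
      push Not at hcon
      have hle : C ≤ Submodule.span F (Set.range c) := fun x hx => hcon x hx
      have h2 : Module.finrank F C ≤ Module.finrank F (Submodule.span F (Set.range c)) :=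
        Submodule.finrank_mono hle
      have h3 : Module.finrank F (Submodule.span F (Set.range c)) ≤ k := by
        have := finrank_range_le_card (R := F) c
        simpa [Set.finrank] using this
      omega
    obtain ⟨x, hxC, hx⟩ := hx
    set y : P → F := x - ∑ i, x (p i) • c i with hy
    have hyC : y ∈ C := C.sub_mem hxC (C.sum_mem fun i _ => C.smul_mem _ (hc i))
    have hy0 : y ≠ 0 := by
      intro h
      apply hx
      have : x = ∑ i, x (p i) • c i := by
        rw [hy] at h
        exact sub_eq_zero.mp h
      rw [this]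
      exact Submodule.sum_mem _ fun i _ => Submodule.smul_mem _ _ (Submodule.subset_span ⟨i, rfl⟩)
    have hyp : ∀ l, y (p l) = 0 := by
      intro l
      have : (∑ i, x (p i) • c i) (p l) = x (p l) := by
        rw [Finset.sum_apply, Finset.sum_eq_single l]
        · simp [h1]
        · intro i _ hi
          simp [h0 i l (Ne.symm hi)]
        · simp
      rw [hy, Pi.sub_apply, this, sub_self]
    obtain ⟨r, hr⟩ : ∃ r, y r ≠ 0 := by
      by_contra hcon
      push Not at hcon
      exact hy0 (funext hcon)
    set z : P → F := (y r)⁻¹ • y with hz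
    have hzC : z ∈ C := C.smul_mem _ hyC
    have hzr : z r = 1 := by simp [hz, hr]
    have hzp : ∀ l, z (p l) = 0 := fun l => by simp [hz, hyp l]
    refine ⟨Fin.snoc p r, Fin.snoc (fun i => c i - c i r • z) z, ?_, ?_, ?_⟩
    · intro i
      refine Fin.lastCases ?_ (fun i => ?_) i
      · simpa using hzC
      · simpa using C.sub_mem (hc i) (C.smul_mem _ hzC)
    · intro i
      refine Fin.lastCases ?_ (fun i => ?_) i
      · simpa using hzr
      · simp [h1, hzp]
    · intro i l
      refine Fin.lastCases ?_ (fun i => ?_) i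
      · refine Fin.lastCases ?_ (fun l => ?_) l
        · intro h; exact absurd rfl h
        · intro _
          simpa using hzp l
      · refine Fin.lastCases ?_ (fun l => ?_) l
        · intro _
          simp [hzr]
        · intro h
          have hne : l ≠ i := fun h' => h (by rw [h'])
          simp [h0 i l hne, hzp]

open Classical in
/-- from a code whose square has large distance to a good family of vectors -/
theorem Good.of_code (C : Submodule F (P → F)) {k : ℕ} (hk : k ≤ Module.finrank F C) {θ : ℝ}
    (hC : ∀ v ∈ Submodule.span F {x | ∃ c ∈ C, ∃ c' ∈ C, x = c * c'}, v ≠ 0 →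
      ((univ.filter fun p => v p = 0).card : ℝ) ≤ θ * Fintype.card P) :
    ∃ a : P → Fin k → F, Good θ a := by
  obtain ⟨p, c, hc, h1, h0⟩ := exists_information_set C k hk
  refine ⟨fun j i => c i j, ?_, ?_⟩
  · intro i
    exact ⟨p i, h1 i, fun l hl => h0 l i (Ne.symm hl)⟩
  · intro M hM
    obtain ⟨j, hj⟩ := hM
    set v : P → F := ∑ i, ∑ l, M i l • (c i * c l) with hv
    have hvj : ∀ j, v j = quad M (fun i => c i j) := by
      intro j
      simp [hv, quad, Finset.sum_apply]
    have hmem : v ∈ Submodule.span F {x | ∃ c ∈ C, ∃ c' ∈ C, x = c * c'} := by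
      refine Submodule.sum_mem _ fun i _ => Submodule.sum_mem _ fun l _ =>
        Submodule.smul_mem _ _ (Submodule.subset_span ⟨c i, hc i, c l, hc l, rfl⟩)
    have := hC v hmem (fun h => hj (by rw [← hvj, h]; rfl))
    simp only [hvj] at this
    exact this

end code

section ext

variable {ι κ : Type*} [Fintype ι] [Fintype κ]

/-- extension of scalars -/
theorem Good.map {K : Type*} [Field K] [Algebra F K] {θ : ℝ} {a : ι → κ → F} (h : Good θ a) :
    Good θ (fun j i => algebraMap F K (a j i)) := by
  classical
  refine ⟨?_, ?_⟩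
  · intro i
    obtain ⟨j, h1, h0⟩ := h.sys i
    exact ⟨j, by simp [h1], fun l hl => by simp [h0 l hl]⟩
  · intro M hM
    obtain ⟨j, hj⟩ := hM
    let B := Module.Basis.ofVectorSpace F K
    have key : ∀ b j, quad (fun i l => B.repr (M i l) b) (a j)
        = B.repr (quad M (fun i => algebraMap F K (a j i))) b := by
      intro b j
      unfold quad
      rw [map_sum, Finsupp.finsetSum_apply]
      refine Finset.sum_congr rfl fun i _ => ?_
      rw [map_sum, Finsupp.finsetSum_apply]
      refine Finset.sum_congr rfl fun l _ => ?_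
      have : M i l * (algebraMap F K (a j i) * algebraMap F K (a j l))
          = (a j i * a j l) • M i l := by
        rw [← map_mul, Algebra.smul_def, mul_comm]
      rw [this, map_smul, Finsupp.smul_apply, smul_eq_mul, mul_comm]
    obtain ⟨b, hb⟩ : ∃ b, B.repr (quad M (fun i => algebraMap F K (a j i))) b ≠ 0 := by
      by_contra hcon
      push Not at hcon
      apply hj
      have : B.repr (quad M (fun i => algebraMap F K (a j i))) = 0 := Finsupp.ext hcon
      exact (LinearEquiv.map_eq_zero_iff _).mp this
    have h3 := h.dist (fun i l => B.repr (M i l) b) ⟨j, by rw [key]; exact hb⟩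
    refine le_trans ?_ h3
    have : (univ.filter fun j => quad M (fun i => algebraMap F K (a j i)) = 0)
        ⊆ (univ.filter fun j => quad (fun i l => B.repr (M i l) b) (a j) = 0) := by
      intro j hj
      simp only [mem_filter, mem_univ, true_and] at hj ⊢
      rw [key, hj]; simp
    exact_mod_cast Finset.card_le_card this

end ext

section dense

/-- all dimensions from a geometric sequence of dimensions -/
theorem exists_good_all {Q c : ℕ} (hQ : 1 < Q) {θ : ℝ}
    (h : ∀ m : ℕ, ∃ (n : ℕ) (C : Submodule F (Fin n → F)),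
      n ≤ c * Q ^ m ∧ Q ^ m ≤ Module.finrank F C ∧
      ∀ v ∈ Submodule.span F {x | ∃ d ∈ C, ∃ d' ∈ C, x = d * d'}, v ≠ 0 →
        (Nat.card {p // v p = 0} : ℝ) ≤ θ * n) (k : ℕ) (hk : 1 ≤ k) :
    ∃ n ≤ c * Q * k, ∃ a : Fin n → Fin k → F, Good θ a := by
  classical
  obtain ⟨m, hm1, hm2⟩ : ∃ m : ℕ, k ≤ Q ^ m ∧ Q ^ m ≤ Q * k := by
    refine ⟨Nat.clog Q k, Nat.le_pow_clog hQ k, ?_⟩
    rcases Nat.lt_or_ge 1 k with hk1 | hk1
    · have h1 := Nat.pow_pred_clog_lt_self hQ hk1
      have h2 : 0 < Nat.clog Q k := Nat.clog_pos hQ hk1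
      obtain ⟨t, ht⟩ : ∃ t, Nat.clog Q k = t + 1 := ⟨Nat.clog Q k - 1, by omega⟩
      rw [ht] at h1 ⊢
      simp only [Nat.pred_eq_sub_one, Nat.add_sub_cancel] at h1
      rw [pow_succ, mul_comm]
      exact Nat.mul_le_mul_left _ h1.le
    · have : k = 1 := by omega
      subst this
      simp
      omega
  obtain ⟨n, C, hn, hC, hd⟩ := h m
  obtain ⟨a, ha⟩ := Good.of_code C (hm1.trans hC) (θ := θ) (by
    intro v hv hv0
    have := hd v hv hv0
    rw [Nat.card_eq_fintype_card, Fintype.card_subtype] at this
    simpa using this)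
  refine ⟨n, ?_, a, ha⟩
  calc n ≤ c * Q ^ m := hn
    _ ≤ c * (Q * k) := Nat.mul_le_mul_left _ hm2
    _ = c * Q * k := by ring

end dense

section misc

variable {ι κ : Type*} [Fintype ι] [Fintype κ]

/-- the distance condition with any decidability instance -/
theorem Good.dist' [DecidableEq F] {θ : ℝ} {a : ι → κ → F} (h : Good θ a) (M : κ → κ → F)
    (hM : ∃ j, quad M (a j) ≠ 0) :
    ((univ.filter fun j => quad M (a j) = 0).card : ℝ) ≤ θ * Fintype.card ι := by
  have h1 := h.dist M hM
  have h2 : (univ.filter fun j => quad M (a j) = 0)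
      = @Finset.filter ι (fun j => quad M (a j) = 0) (fun _ => Classical.propDecidable _) univ := by
    ext j
    simp
  rw [h2]
  exact h1

/-- the positions of the unit vectors -/
theorem Good.exists_pos {θ : ℝ} {a : ι → κ → F} (h : Good θ a) :
    ∃ Q : κ → ι, Function.Injective Q ∧ ∀ i, a (Q i) i = 1 ∧ ∀ l, l ≠ i → a (Q i) l = 0 := by
  choose Q hQ using h.sys
  refine ⟨Q, fun i i' hii => ?_, hQ⟩
  by_contra hne
  have h1 := (hQ i).1
  rw [hii, (hQ i').2 i hne] at h1
  exact zero_ne_one h1

theorem Good.mono {θ θ' : ℝ} (hθ : θ ≤ θ') {a : ι → κ → F} (h : Good θ a) : Good θ' a :=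
  ⟨h.sys, fun M hM => (h.dist M hM).trans (mul_le_mul_of_nonneg_right hθ (Nat.cast_nonneg _))⟩

theorem quad_eq_dotProduct (M : Matrix κ κ F) (v : κ → F) :
    quad M v = v ⬝ᵥ M.mulVec v := by
  unfold quad dotProduct Matrix.mulVec dotProduct
  refine Finset.sum_congr rfl fun i _ => ?_
  rw [Finset.mul_sum]
  refine Finset.sum_congr rfl fun l _ => ?_
  ring

theorem quad_eq_trace (M : Matrix κ κ F) (v : κ → F) :
    quad M v = (M * Matrix.vecMulVec v v).trace := by
  unfold quad Matrix.trace
  refine Finset.sum_congr rfl fun i _ => ?_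
  rw [Matrix.diag_apply, Matrix.mul_apply]
  refine Finset.sum_congr rfl fun l _ => ?_
  rw [Matrix.vecMulVec_apply]
  ring

/-- `quad` is additive and homogeneous in the matrix -/
theorem quad_add (M N : κ → κ → F) (v : κ → F) :
    quad (fun i l => M i l + N i l) v = quad M v + quad N v := by
  unfold quad
  rw [← Finset.sum_add_distrib]
  refine Finset.sum_congr rfl fun i _ => ?_
  rw [← Finset.sum_add_distrib]
  refine Finset.sum_congr rfl fun l _ => ?_
  ring

/-- the polarised form: a linear functional of the symmetric products of two rows -/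
theorem Good.dist_two {θ : ℝ} {a : ι → κ → F} (h : Good θ a) {s : Type*} [Fintype s]
    (u w : s → κ → F)
    (hM : ∃ j, ∑ t, (∑ i, u t i * a j i) * (∑ i, w t i * a j i) ≠ 0) :
    (Nat.card {j // ∑ t, (∑ i, u t i * a j i) * (∑ i, w t i * a j i) = 0} : ℝ)
      ≤ θ * Fintype.card ι := by
  classical
  have key : ∀ j, quad (fun i l => ∑ t, u t i * w t l) (a j)
      = ∑ t, (∑ i, u t i * a j i) * (∑ i, w t i * a j i) := by
    intro j
    unfold quad
    have e1 : ∀ t, (∑ i, u t i * a j i) * (∑ i, w t i * a j i)
        = ∑ i, ∑ l, u t i * w t l * (a j i * a j l) := by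
      intro t
      rw [Finset.sum_mul]
      refine Finset.sum_congr rfl fun i _ => ?_
      rw [Finset.mul_sum]
      refine Finset.sum_congr rfl fun l _ => ?_
      ring
    simp only [e1]
    rw [Finset.sum_comm (s := (univ : Finset s))]
    refine Finset.sum_congr rfl fun i _ => ?_
    rw [Finset.sum_comm (s := (univ : Finset s))]
    refine Finset.sum_congr rfl fun l _ => ?_
    rw [Finset.sum_mul]
  have h3 := h.dist (fun i l => ∑ t, u t i * w t l) (by simpa only [key] using hM)
  simp only [key] at h3
  rw [Nat.card_eq_fintype_card, Fintype.card_subtype]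
  exact h3

end misc

end Vale.Agent.P318.H321
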